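import Vale.Agent.P344.Defs
import Vale.Agent.P344.Main

open Filter Vale.Agent.P344

theorem Vale.Agent.Results.P344.SubNLogN.result :
    (∃ δ : ℝ, 0 < δ ∧ ∃ C : ℝ, ∀ᶠ n : ℕ in atTop,
      (dftCost n : ℝ) ≤ C * n * Real.log n ^ (1 - δ)) ∧
    ¬ ∃ c : ℝ, 0 < c ∧ ∀ᶠ n : ℕ in atTop, c * n * Real.logb 2 n ≤ (dftCost n : ℝ) :=
  ⟨upper, no_lower⟩
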